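import Mathlib

/-!
P067: finite pure simplicial complexes given by their top faces, cochains over `ZMod 2`, the weights
of the problem file and coboundary expansion. Faces are indexed by their number of vertices, so
degree `k` here is degree `k - 1` in the problem file; `k = 0` is the empty face, whose coboundary
gives the constants.
-/

namespace Vale.Agent.P067

open Finset

variable {V : Type} [Fintype V] [DecidableEq V]

/-- `F` is the set of top faces of a pure `d`-dimensional complex with vertex set `V`. -/
def IsPure (d : ℕ) (F : Finset (Finset V)) : Prop :=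
  F.Nonempty ∧ (∀ t ∈ F, t.card = d + 1) ∧ ∀ v, ∃ t ∈ F, v ∈ t

/-- Every vertex lies in at most `D` top faces. -/
def DegreeLE (D : ℕ) (F : Finset (Finset V)) : Prop :=
  ∀ v, (F.filter fun t => v ∈ t).card ≤ D

/-- The faces with `k` vertices. -/
def faces (F : Finset (Finset V)) (k : ℕ) : Finset (Finset V) :=
  univ.filter fun σ => σ.card = k ∧ ∃ t ∈ F, σ ⊆ t

/-- Cochains on the faces with `k` vertices. -/
abbrev Cochain (F : Finset (Finset V)) (k : ℕ) : Type := {σ // σ ∈ faces F k} → ZMod 2

/-- The coboundary. -/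
def cbd (F : Finset (Finset V)) (k : ℕ) : Cochain F k →ₗ[ZMod 2] Cochain F (k + 1) where
  toFun f τ := ∑ σ ∈ univ.filter (fun σ : {σ // σ ∈ faces F k} => σ.1 ⊆ τ.1), f σ
  map_add' f g := by funext τ; simp [Finset.sum_add_distrib]
  map_smul' c f := by funext τ; simp [Finset.mul_sum]

/-- The weighted norm: a uniform top face, then a uniform face of it. -/
noncomputable def cnorm (d : ℕ) (F : Finset (Finset V)) (k : ℕ) (f : Cochain F k) : ℝ :=
  ∑ σ ∈ univ.filter (fun σ => f σ ≠ 0),
    ((F.filter fun t => σ.1 ⊆ t).card : ℝ) / ((Nat.choose (d + 1) k : ℝ) * F.card)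

/-- `ε`-coboundary expansion in all degrees below `d`. -/
def IsCoboundaryExpander (d : ℕ) (ε : ℝ) (F : Finset (Finset V)) : Prop :=
  ∀ k < d, ∀ f : Cochain F (k + 1), ∃ a : Cochain F k,
    ε * cnorm d F (k + 1) (f - cbd F k a) ≤ cnorm d F (k + 1 + 1) (cbd F (k + 1) f)

/-- The dimension of the top cohomology over `ZMod 2`. -/
noncomputable def topBetti (d : ℕ) (F : Finset (Finset V)) : ℕ :=
  Module.finrank (ZMod 2) (Cochain F (d + 1) ⧸ LinearMap.range (cbd F d))

end Vale.Agent.P067
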