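import Vale.Agent.P067.Defs

/-!
P067: in a coboundary expander of bounded degree the top cohomology is linear in the vertices.
If it had dimension `r`, the top coboundary would have a partial inverse with columns of size
`O(r + 1)`; expansion pushes this down to the vertices, where it would make the projection to the
constants sparse.
-/

namespace Vale.Agent.P067

open Finset

variable {V : Type} [Fintype V] [DecidableEq V] {F : Finset (Finset V)} {d D : ℕ} {ε : ℝ}

/-- The support size. -/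
def supp {ι : Type*} [Fintype ι] (f : ι → ZMod 2) : ℕ := (univ.filter fun i => f i ≠ 0).card

section Supp

variable {ι κ : Type*} [Fintype ι] [Fintype κ]

theorem supp_zero : supp (0 : ι → ZMod 2) = 0 := by simp [supp]

theorem supp_add_le (f g : ι → ZMod 2) : supp (f + g) ≤ supp f + supp g := by
  classical
  refine (card_le_card fun i hi => ?_).trans (card_union_le _ _)
  simp only [mem_filter, mem_univ, true_and, mem_union, Pi.add_apply] at hi ⊢
  by_contra h
  push Not at h
  exact hi (by rw [h.1, h.2, add_zero])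

theorem supp_sub_le (f g : ι → ZMod 2) : supp (f - g) ≤ supp f + supp g := by
  have e : supp (-g) = supp g := by simp [supp]
  rw [sub_eq_add_neg, ← e]
  exact supp_add_le f (-g)

theorem supp_sum_le {α : Type*} (s : Finset α) (f : α → ι → ZMod 2) :
    supp (∑ a ∈ s, f a) ≤ ∑ a ∈ s, supp (f a) := by
  classical
  induction s using Finset.induction_on with
  | empty => simp [supp_zero]
  | insert a s ha ih =>
    rw [sum_insert ha, sum_insert ha]
    exact (supp_add_le _ _).trans (by omega)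

theorem supp_smul_le (c : ZMod 2) (f : ι → ZMod 2) : supp (c • f) ≤ supp f :=
  card_le_card fun i hi => by
    simp only [mem_filter, mem_univ, true_and, Pi.smul_apply, smul_eq_mul] at hi ⊢
    exact right_ne_zero_of_mul hi

theorem supp_single [DecidableEq ι] (i : ι) : supp (Pi.single i (1 : ZMod 2)) ≤ 1 := by
  refine (card_le_card fun j hj => ?_).trans (card_singleton i).le
  simp only [mem_filter, mem_univ, true_and, mem_singleton] at hj ⊢
  by_contra h
  exact hj (Pi.single_eq_of_ne h _)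

theorem supp_map_le [DecidableEq ι] (L : (ι → ZMod 2) →ₗ[ZMod 2] (κ → ZMod 2)) {K : ℕ}
    (h : ∀ i, supp (L (Pi.single i 1)) ≤ K) (x : ι → ZMod 2) :
    supp (L x) ≤ supp x * K := by
  have e : x = ∑ i, x i • Pi.single i (1 : ZMod 2) := by
    funext j
    simp [Finset.sum_apply, Pi.single_apply]
  conv_lhs => rw [e, map_sum]
  refine (supp_sum_le _ _).trans ((sum_le_sum (g := fun i => if x i ≠ 0 then K else 0)
    fun i _ => ?_).trans (le_of_eq ?_))
  · rw [map_smul]
    split_ifs with hi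
    · exact (supp_smul_le _ _).trans (h i)
    · rw [not_not.1 hi, zero_smul, supp_zero]
  · rw [← sum_filter, sum_const, smul_eq_mul]
    rfl

theorem linearMap_eq_of_single [DecidableEq ι] {M : Type*} [AddCommGroup M] [Module (ZMod 2) M]
    {L L' : (ι → ZMod 2) →ₗ[ZMod 2] M} (h : ∀ i, L (Pi.single i 1) = L' (Pi.single i 1)) :
    L = L' :=
  (Pi.basisFun (ZMod 2) ι).ext fun i => by simpa [Pi.basisFun_apply] using h i

theorem exists_linearMap_single [DecidableEq ι] {M : Type*} [AddCommGroup M] [Module (ZMod 2) M]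
    (a : ι → M) : ∃ L : (ι → ZMod 2) →ₗ[ZMod 2] M, ∀ i, L (Pi.single i 1) = a i :=
  ⟨(Pi.basisFun (ZMod 2) ι).constr (ZMod 2) a, fun i => by
    rw [← Pi.basisFun_apply, Module.Basis.constr_basis]⟩

end Supp

theorem mem_faces {k : ℕ} {σ : Finset V} : σ ∈ faces F k ↔ σ.card = k ∧ ∃ t ∈ F, σ ⊆ t := by
  simp [faces]

theorem exists_mem_of_pos {k : ℕ} (hk : 0 < k) (σ : {σ // σ ∈ faces F k}) : ∃ v, v ∈ σ.1 :=
  card_pos.1 ((mem_faces.1 σ.2).1.symm ▸ hk)

theorem cbd_apply (k : ℕ) (f : Cochain F k) (τ : {σ // σ ∈ faces F (k + 1)}) :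
    cbd F k f τ = ∑ σ ∈ univ.filter (fun σ : {σ // σ ∈ faces F k} => σ.1 ⊆ τ.1), f σ := rfl

theorem cbd_single (k : ℕ) (σ : {σ // σ ∈ faces F k}) (τ : {σ // σ ∈ faces F (k + 1)}) :
    cbd F k (Pi.single σ 1) τ = if σ.1 ⊆ τ.1 then 1 else 0 := by
  rw [cbd_apply]
  simp [Finset.sum_pi_single]

theorem supp_cbd_single (hD : DegreeLE D F) (hF : IsPure d F) {k : ℕ} (hk : 0 < k)
    (σ : {σ // σ ∈ faces F k}) :
    supp (cbd F k (Pi.single σ 1)) ≤ D * 2 ^ (d + 1) := by
  classical
  obtain ⟨v, hv⟩ := exists_mem_of_pos hk σ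
  refine le_trans ?_ ((card_biUnion_le_card_mul (F.filter fun t => v ∈ t) Finset.powerset
    (2 ^ (d + 1)) fun t ht => by rw [card_powerset, hF.2.1 t (mem_filter.1 ht).1]).trans
    (Nat.mul_le_mul_right _ (hD v)))
  refine card_le_card_of_injOn Subtype.val (fun τ hτ => ?_) Subtype.val_injective.injOn
  simp only [coe_filter, mem_univ, true_and, Set.mem_setOf_eq, cbd_single] at hτ
  by_cases h : σ.1 ⊆ τ.1
  · obtain ⟨-, t, ht, hsub⟩ := mem_faces.1 τ.2
    simp only [coe_biUnion, coe_filter, Set.mem_iUnion, Set.mem_setOf_eq, mem_coe, mem_powerset]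
    exact ⟨t, ⟨ht, hsub (h hv)⟩, hsub⟩
  · exact absurd (if_neg h) hτ

theorem cbd_cbd (k : ℕ) (f : Cochain F k) : cbd F (k + 1) (cbd F k f) = 0 := by
  classical
  have h : (cbd F (k + 1)).comp (cbd F k) = 0 := linearMap_eq_of_single fun ρ => by
    funext τ
    simp only [LinearMap.comp_apply, LinearMap.zero_apply, Pi.zero_apply]
    rw [cbd_apply]
    simp only [cbd_single, ← sum_filter, filter_filter, sum_const, nsmul_eq_mul, mul_one]
    suffices hcount : (univ.filter fun σ : {σ // σ ∈ faces F (k + 1)} =>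
        σ.1 ⊆ τ.1 ∧ ρ.1 ⊆ σ.1).card = if ρ.1 ⊆ τ.1 then 2 else 0 by
      calc _ = (((univ.filter fun σ : {σ // σ ∈ faces F (k + 1)} =>
            σ.1 ⊆ τ.1 ∧ ρ.1 ⊆ σ.1).card : ℕ) : ZMod 2) := by congr 2; ext; simp
        _ = 0 := by
          rw [hcount]
          split_ifs
          · exact CharP.cast_eq_zero (ZMod 2) 2
          · simp
    · split_ifs with hs
      · have hc : (τ.1 \ ρ.1).card = 2 := by
          rw [card_sdiff_of_subset hs, (mem_faces.1 τ.2).1, (mem_faces.1 ρ.2).1]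
          omega
        rw [← hc]
        obtain ⟨hτc, t, ht, hτt⟩ := mem_faces.1 τ.2
        refine (card_bij (fun x hx => (⟨insert x ρ.1, mem_faces.2 ⟨?_, t, ht, ?_⟩⟩ :
          {σ // σ ∈ faces F (k + 1)})) ?_ ?_ ?_).symm
        · rw [card_insert_of_notMem (mem_sdiff.1 hx).2, (mem_faces.1 ρ.2).1]
        · exact insert_subset (hτt (mem_sdiff.1 hx).1) (hs.trans hτt)
        · intro x hx
          simp only [mem_filter, mem_univ, true_and]
          exact ⟨insert_subset (mem_sdiff.1 hx).1 hs, subset_insert _ _⟩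
        · intro x hx y hy e
          have e' := congrArg Subtype.val e
          simp only at e'
          have : x ∈ insert y ρ.1 := e' ▸ mem_insert_self x ρ.1
          rcases mem_insert.1 this with h | h
          · exact h
          · exact absurd h (mem_sdiff.1 hx).2
        · intro σ hσ
          simp only [mem_filter, mem_univ, true_and] at hσ
          have h1 : (σ.1 \ ρ.1).card = 1 := by
            rw [card_sdiff_of_subset hσ.2, (mem_faces.1 σ.2).1, (mem_faces.1 ρ.2).1]
            omega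
          obtain ⟨x, hx⟩ := card_eq_one.1 h1
          have hx' := mem_sdiff.1 (hx.symm ▸ mem_singleton_self x : x ∈ σ.1 \ ρ.1)
          refine ⟨x, mem_sdiff.2 ⟨hσ.1 hx'.1, hx'.2⟩, Subtype.ext ?_⟩
          show insert x ρ.1 = σ.1
          rw [insert_eq, ← hx, sdiff_union_of_subset hσ.2]
      · rw [card_eq_zero, filter_eq_empty_iff]
        exact fun σ _ h => hs (h.2.trans h.1)
  exact LinearMap.congr_fun h f

theorem facet_count (hF : IsPure d F) (hD : DegreeLE D F) {k : ℕ} (hk : 0 < k)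
    (σ : {σ // σ ∈ faces F k}) :
    1 ≤ (F.filter fun t => σ.1 ⊆ t).card ∧ (F.filter fun t => σ.1 ⊆ t).card ≤ D := by
  obtain ⟨v, hv⟩ := exists_mem_of_pos hk σ
  obtain ⟨-, t, ht, hs⟩ := mem_faces.1 σ.2
  exact ⟨card_pos.2 ⟨t, mem_filter.2 ⟨ht, hs⟩⟩, (card_le_card fun u hu =>
    mem_filter.2 ⟨(mem_filter.1 hu).1, (show σ.1 ⊆ u from (mem_filter.1 hu).2) hv⟩).trans (hD v)⟩

theorem cnorm_bounds (hF : IsPure d F) (hD : DegreeLE D F) {k : ℕ} (hk : 0 < k)
    (hkd : k ≤ d + 1) (f : Cochain F k) :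
    (supp f : ℝ) / (2 ^ (d + 1) * F.card) ≤ cnorm d F k f ∧
      cnorm d F k f ≤ supp f * D / F.card := by
  have hc : (1 : ℝ) ≤ (Nat.choose (d + 1) k : ℝ) := by exact_mod_cast Nat.choose_pos hkd
  have hc' : (Nat.choose (d + 1) k : ℝ) ≤ 2 ^ (d + 1) := by
    exact_mod_cast Nat.choose_le_two_pow (d + 1) k
  have hF0 : (0 : ℝ) < F.card := by exact_mod_cast hF.1.card_pos
  have e : ∀ c : ℝ, (supp f : ℝ) * c = ∑ _σ ∈ univ.filter (fun σ => f σ ≠ 0), c := fun c => by
    rw [sum_const, nsmul_eq_mul]; rfl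
  constructor
  · rw [div_eq_mul_inv, e]
    refine sum_le_sum fun σ _ => ?_
    rw [inv_eq_one_div]
    exact div_le_div₀ (Nat.cast_nonneg _) (by exact_mod_cast (facet_count hF hD hk σ).1)
      (by positivity) (mul_le_mul_of_nonneg_right hc' hF0.le)
  · rw [mul_div_assoc, e]
    refine sum_le_sum fun σ _ => ?_
    refine div_le_div₀ (Nat.cast_nonneg _) (by exact_mod_cast (facet_count hF hD hk σ).2) hF0 ?_
    exact le_mul_of_one_le_left hF0.le hc

/-- Expansion, with support sizes. -/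
theorem expand (hF : IsPure d F) (hD : DegreeLE D F) (hε : 0 < ε)
    (hX : IsCoboundaryExpander d ε F) {C : ℕ} (hC : (2 : ℝ) ^ (d + 1) * D / ε ≤ C) {k : ℕ}
    (hk : k < d) (f : Cochain F (k + 1)) :
    ∃ g : Cochain F (k + 1), cbd F (k + 1) g = cbd F (k + 1) f ∧
      supp g ≤ C * supp (cbd F (k + 1) f) ∧ f - g ∈ LinearMap.range (cbd F k) := by
  obtain ⟨a, ha⟩ := hX k hk f
  refine ⟨f - cbd F k a, by rw [map_sub, cbd_cbd, sub_zero], ?_, a, by abel⟩
  have h1 := (cnorm_bounds hF hD k.succ_pos (by omega) (f - cbd F k a)).1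
  have h2 := (cnorm_bounds hF hD (k + 1).succ_pos (by omega) (cbd F (k + 1) f)).2
  have hF0 : (0 : ℝ) < F.card := by exact_mod_cast hF.1.card_pos
  have h3 := ((mul_le_mul_of_nonneg_left h1 hε.le).trans ha).trans h2
  have h4 : (supp (f - cbd F k a) : ℝ) ≤
      2 ^ (d + 1) * D / ε * supp (cbd F (k + 1) f) := by
    have h5 : ε * (supp (f - cbd F k a) : ℝ) / (2 ^ (d + 1)) ≤
        (supp (cbd F (k + 1) f) : ℝ) * D := by
      have := mul_le_mul_of_nonneg_right h3 hF0.le
      rw [div_mul_cancel₀ _ hF0.ne'] at this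
      refine le_trans (le_of_eq ?_) this
      field_simp
    rw [div_le_iff₀ (by positivity)] at h5
    rw [div_mul_eq_mul_div, le_div_iff₀ hε]
    linarith
  exact_mod_cast h4.trans (mul_le_mul_of_nonneg_right hC (Nat.cast_nonneg _))

/-- Below the top there is no cohomology. -/
theorem exact_of_expander (hF : IsPure d F) (hD : DegreeLE D F) (hε : 0 < ε)
    (hX : IsCoboundaryExpander d ε F) {k : ℕ} (hk : k < d) {f : Cochain F (k + 1)}
    (hf : cbd F (k + 1) f = 0) : f ∈ LinearMap.range (cbd F k) := by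
  obtain ⟨g, -, hg, hr⟩ := expand hF hD hε hX (Nat.le_ceil _) hk f
  rw [hf, supp_zero, mul_zero, Nat.le_zero, supp, card_eq_zero, filter_eq_empty_iff] at hg
  rwa [show g = 0 from funext fun σ => not_not.1 (hg (mem_univ σ)), sub_zero] at hr

/-- A partial inverse of the coboundary with columns of size at most `K`. -/
def SparseInv (F : Finset (Finset V)) (k K : ℕ) : Prop :=
  ∃ G : Cochain F (k + 1) →ₗ[ZMod 2] Cochain F k,
    (∀ x, cbd F k (G (cbd F k x)) = cbd F k x) ∧ ∀ τ, supp (G (Pi.single τ 1)) ≤ K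

theorem sparse_projection (k : ℕ) :
    ∃ P : Cochain F (k + 1) →ₗ[ZMod 2] Cochain F (k + 1),
      (∀ x, P x ∈ LinearMap.range (cbd F k)) ∧ (∀ x, P (cbd F k x) = cbd F k x) ∧
      ∀ τ, supp (P (Pi.single τ 1)) ≤
        1 + Module.finrank (ZMod 2) (Cochain F (k + 1) ⧸ LinearMap.range (cbd F k)) := by
  classical
  set B := LinearMap.range (cbd F k)
  set e : {σ // σ ∈ faces F (k + 1)} → Cochain F (k + 1) ⧸ B :=
    fun t => B.mkQ (Pi.single t 1) with he
  have hspan : Submodule.span (ZMod 2) (Set.range e) = ⊤ := by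
    rw [he, Set.range_comp' B.mkQ fun t => (Pi.single t 1 : Cochain F (k + 1)),
      ← Submodule.map_span]
    rw [show Submodule.span (ZMod 2)
        (Set.range fun t => (Pi.single t 1 : Cochain F (k + 1))) = ⊤ by
      rw [← (Pi.basisFun (ZMod 2) {σ // σ ∈ faces F (k + 1)}).span_eq]
      congr 2
      funext t
      rw [Pi.basisFun_apply]]
    rw [Submodule.map_top, Submodule.range_mkQ]
  obtain ⟨b, hb, hbs, hli⟩ := exists_linearIndependent (ZMod 2) (Set.range e)
  haveI : Fintype b := ((Set.finite_range e).subset hb).fintype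
  let β : Module.Basis b (ZMod 2) (Cochain F (k + 1) ⧸ B) :=
    Module.Basis.mk hli (by rw [Subtype.range_coe, hbs, hspan])
  choose t ht using fun q : b => hb q.2
  let s : (Cochain F (k + 1) ⧸ B) →ₗ[ZMod 2] Cochain F (k + 1) :=
    β.constr (ZMod 2) fun q => Pi.single (t q) 1
  have hs : ∀ y, B.mkQ (s y) = y := by
    intro y
    refine LinearMap.congr_fun (β.ext fun q => ?_ : B.mkQ.comp s = LinearMap.id) y
    simp only [LinearMap.comp_apply, LinearMap.id_apply, s, Module.Basis.constr_basis]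
    rw [show β q = q.1 from Module.Basis.mk_apply hli _ q]
    exact ht q
  refine ⟨LinearMap.id - s.comp B.mkQ, fun x => ?_, fun x => ?_, fun τ => ?_⟩
  · rw [← Submodule.Quotient.mk_eq_zero, ← Submodule.mkQ_apply]
    simp only [LinearMap.sub_apply, LinearMap.id_apply, LinearMap.comp_apply, map_sub, hs, sub_self]
  · have h0 : B.mkQ (cbd F k x) = 0 :=
      (Submodule.Quotient.mk_eq_zero B).2 (LinearMap.mem_range_self _ x)
    simp only [LinearMap.sub_apply, LinearMap.id_apply, LinearMap.comp_apply, h0, map_zero, sub_zero]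
  · simp only [LinearMap.sub_apply, LinearMap.id_apply, LinearMap.comp_apply]
    refine (supp_sub_le _ _).trans (add_le_add (supp_single τ) ?_)
    rw [Module.finrank_eq_card_basis β]
    simp only [s, Module.Basis.constr_apply_fintype]
    refine (supp_sum_le _ _).trans ((sum_le_sum fun q _ =>
      (supp_smul_le _ _).trans (supp_single (t q))).trans ?_)
    simp

theorem sparseInv_top (hF : IsPure d F) (hD : DegreeLE D F) (hε : 0 < ε)
    (hX : IsCoboundaryExpander d ε F) {C : ℕ} (hC : (2 : ℝ) ^ (d + 1) * D / ε ≤ C)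
    {k : ℕ} (hk : k + 1 = d) : SparseInv F (k + 1) (C * (topBetti d F + 1)) := by
  classical
  obtain ⟨P, hP, hPid, hPs⟩ := sparse_projection (F := F) (k + 1)
  have h : ∀ τ, ∃ g : Cochain F (k + 1), cbd F (k + 1) g = P (Pi.single τ 1) ∧
      supp g ≤ C * (topBetti d F + 1) := fun τ => by
    obtain ⟨f, hf⟩ := hP (Pi.single τ 1)
    obtain ⟨g, hg, hs, -⟩ := expand hF hD hε hX hC (k := k) (by omega) f
    refine ⟨g, hg.trans hf, hs.trans (Nat.mul_le_mul_left _ ?_)⟩
    rw [hf]
    subst hk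
    exact (hPs τ).trans (le_of_eq (by rw [topBetti, add_comm]))
  choose g hg hs using h
  obtain ⟨G, hG⟩ := exists_linearMap_single g
  refine ⟨G, fun x => ?_, fun τ => by rw [hG]; exact hs τ⟩
  have e : (cbd F (k + 1)).comp G = P := linearMap_eq_of_single fun τ => by
    rw [LinearMap.comp_apply, hG, hg]
  rw [show cbd F (k + 1) (G (cbd F (k + 1) x)) = P (cbd F (k + 1) x) from
    LinearMap.congr_fun e _, hPid]

theorem sparseInv_down (hF : IsPure d F) (hD : DegreeLE D F) (hε : 0 < ε)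
    (hX : IsCoboundaryExpander d ε F) {C : ℕ} (hC : (2 : ℝ) ^ (d + 1) * D / ε ≤ C)
    {k K : ℕ} (hk : k + 1 < d) (h : SparseInv F (k + 1 + 1) K) :
    SparseInv F (k + 1) (C * (1 + D * 2 ^ (d + 1) * K)) := by
  classical
  obtain ⟨G, hG, hGs⟩ := h
  set π : Cochain F (k + 1 + 1) →ₗ[ZMod 2] Cochain F (k + 1 + 1) :=
    LinearMap.id - G.comp (cbd F (k + 1 + 1)) with hπdef
  have hπ : ∀ x, π x = x - G (cbd F (k + 1 + 1) x) := fun x => rfl
  have hstep : ∀ τ, ∃ g : Cochain F (k + 1), cbd F (k + 1) g = π (Pi.single τ 1) ∧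
      supp g ≤ C * (1 + D * 2 ^ (d + 1) * K) := fun τ => by
    obtain ⟨f, hf⟩ := exact_of_expander hF hD hε hX hk (f := π (Pi.single τ 1))
      (by rw [hπ, map_sub, hG, sub_self])
    obtain ⟨g, hg, hs, -⟩ := expand hF hD hε hX hC (k := k) (by omega) f
    refine ⟨g, hg.trans hf, hs.trans (Nat.mul_le_mul_left _ ?_)⟩
    rw [hf, hπ]
    exact (supp_sub_le _ _).trans (add_le_add (supp_single τ) ((supp_map_le G hGs _).trans
      (Nat.mul_le_mul_right _ (supp_cbd_single hD hF (k + 1).succ_pos τ))))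
  choose g hg hs using hstep
  obtain ⟨G', hG'⟩ := exists_linearMap_single g
  refine ⟨G', fun x => ?_, fun τ => by rw [hG']; exact hs τ⟩
  have e : (cbd F (k + 1)).comp G' = π := linearMap_eq_of_single fun τ => by
    rw [LinearMap.comp_apply, hG', hg]
  rw [show cbd F (k + 1) (G' (cbd F (k + 1) x)) = π (cbd F (k + 1) x) from
    LinearMap.congr_fun e _, hπ, cbd_cbd, map_zero, sub_zero]

theorem empty_mem_faces (hF : IsPure d F) : (∅ : Finset V) ∈ faces F 0 :=
  mem_faces.2 ⟨card_empty, hF.1.choose, hF.1.choose_spec, empty_subset _⟩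

theorem card_faces_one (hF : IsPure d F) :
    Fintype.card {σ // σ ∈ faces F 1} = Fintype.card V := by
  refine (Fintype.card_of_bijective (f := fun v => (⟨{v}, mem_faces.2 ⟨card_singleton v, ?_⟩⟩ :
    {σ // σ ∈ faces F 1})) ⟨fun v w h => by simpa using congrArg Subtype.val h, fun σ => ?_⟩).symm
  · obtain ⟨t, ht, hv⟩ := hF.2.2 v
    exact ⟨t, ht, singleton_subset_iff.2 hv⟩
  · obtain ⟨v, hv⟩ := card_eq_one.1 (mem_faces.1 σ.2).1
    exact ⟨v, Subtype.ext hv.symm⟩

theorem cbd_zero_apply (hF : IsPure d F) (a : Cochain F 0) (v : {σ // σ ∈ faces F 1}) :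
    cbd F 0 a v = a ⟨∅, empty_mem_faces hF⟩ := by
  rw [cbd_apply]
  refine sum_eq_single_of_mem (⟨∅, empty_mem_faces hF⟩ : {σ // σ ∈ faces F 0}) (by simp) ?_
  intro σ _ hσ
  exact absurd (Subtype.ext (card_eq_zero.1 (mem_faces.1 σ.2).1)) hσ

theorem card_le_of_sparse (hF : IsPure d F) (hD : DegreeLE D F) (hε : 0 < ε)
    (hX : IsCoboundaryExpander d ε F) (hd : 1 ≤ d) {K : ℕ} (h : SparseInv F 1 K) :
    Fintype.card V ≤ 1 + D * 2 ^ (d + 1) * K := by
  classical
  obtain ⟨G, hG, hGs⟩ := h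
  by_contra hlt
  set π : Cochain F 1 →ₗ[ZMod 2] Cochain F 1 := LinearMap.id - G.comp (cbd F 1) with hπdef
  have hπ : ∀ x, π x = x - G (cbd F 1 x) := fun x => rfl
  have hz : π = 0 := linearMap_eq_of_single fun τ => by
    obtain ⟨a, ha⟩ := exact_of_expander hF hD hε hX (k := 0) (by omega) (f := π (Pi.single τ 1))
      (by rw [hπ, map_sub, hG, sub_self])
    have hs : supp (π (Pi.single τ 1)) ≤ 1 + D * 2 ^ (d + 1) * K := by
      rw [hπ]
      exact (supp_sub_le _ _).trans (add_le_add (supp_single τ) ((supp_map_le G hGs _).trans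
        (Nat.mul_le_mul_right _ (supp_cbd_single hD hF Nat.one_pos τ))))
    rw [← ha] at hs ⊢
    funext v
    rw [cbd_zero_apply hF]
    by_contra hne
    refine hlt (le_trans (le_of_eq ?_) hs)
    rw [← card_faces_one hF, supp, filter_true_of_mem fun w _ => by
      rw [cbd_zero_apply hF]; simpa using hne, card_univ]
  obtain ⟨t, ht⟩ := hF.1
  obtain ⟨v, hv⟩ := card_pos.1 (show 0 < t.card by rw [hF.2.1 t ht]; omega)
  have e := congrFun (LinearMap.congr_fun hz (cbd F 0 fun _ => 1))
    ⟨{v}, mem_faces.2 ⟨card_singleton v, t, ht, singleton_subset_iff.2 hv⟩⟩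
  rw [hπ, cbd_cbd, map_zero, sub_zero, cbd_zero_apply hF] at e
  exact one_ne_zero e

/-- The vertices are at most a constant times the top Betti number plus one. -/
theorem card_le_topBetti (hF : IsPure d F) (hD : DegreeLE D F) (hε : 0 < ε)
    (hX : IsCoboundaryExpander d ε F) (hd : 1 ≤ d) :
    Fintype.card V ≤ 1 + D * 2 ^ (d + 1) *
      (((⌈(2 : ℝ) ^ (d + 1) * D / ε⌉₊ + 1) * (1 + D * 2 ^ (d + 1))) ^ (d + 1) *
        (topBetti d F + 1)) := by
  set C := ⌈(2 : ℝ) ^ (d + 1) * D / ε⌉₊ + 1 with hCdef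
  set M := D * 2 ^ (d + 1) with hM
  have hC : (2 : ℝ) ^ (d + 1) * D / ε ≤ (C : ℕ) :=
    (Nat.le_ceil _).trans (Nat.cast_le.2 (Nat.le_succ _))
  have key : ∀ m k, k + 1 + m = d →
      ∃ K, SparseInv F (k + 1) K ∧ 1 ≤ K ∧ K ≤ (C * (1 + M)) ^ (m + 1) * (topBetti d F + 1) := by
    intro m
    induction m with
    | zero =>
      intro k hk
      refine ⟨C * (topBetti d F + 1), sparseInv_top hF hD hε hX hC (by omega),
        Nat.mul_pos (Nat.succ_pos _) (Nat.succ_pos _), ?_⟩
      rw [pow_one]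
      exact Nat.mul_le_mul_right _ (Nat.le_mul_of_pos_right _ (by omega))
    | succ m ih =>
      intro k hk
      obtain ⟨K, hK, hK1, hK2⟩ := ih (k + 1) (by omega)
      refine ⟨_, sparseInv_down hF hD hε hX hC (by omega) hK,
        Nat.mul_pos (Nat.succ_pos _) (by omega), ?_⟩
      calc C * (1 + M * K) ≤ C * ((1 + M) * K) := Nat.mul_le_mul_left _ (by nlinarith)
        _ ≤ C * ((1 + M) * ((C * (1 + M)) ^ (m + 1) * (topBetti d F + 1))) := by gcongr
        _ = _ := by ring
  obtain ⟨K, hK, -, hK2⟩ := key (d - 1) 0 (by omega)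
  refine (card_le_of_sparse hF hD hε hX hd hK).trans (Nat.add_le_add_left (Nat.mul_le_mul_left _
    (hK2.trans ?_)) _)
  refine Nat.mul_le_mul_right _ (Nat.pow_le_pow_right (Nat.mul_pos (Nat.succ_pos _) (by omega)) ?_)
  omega

/-- The top Betti number is the reduced Euler characteristic, up to sign. -/
theorem topBetti_euler (hF : IsPure d F) (hD : DegreeLE D F) (hε : 0 < ε)
    (hX : IsCoboundaryExpander d ε F) :
    (topBetti d F : ℤ) = ∑ j ∈ range (d + 2), (-1) ^ j * ((faces F (d + 1 - j)).card : ℤ) := by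
  classical
  have key : ∀ k ≤ d, (Module.finrank (ZMod 2) (LinearMap.range (cbd F k)) : ℤ) =
      ∑ j ∈ range (k + 1), (-1) ^ j * ((faces F (k - j)).card : ℤ) := by
    intro k
    induction k with
    | zero =>
      intro _
      have hinj : Function.Injective (cbd F 0) := fun a b h => by
        obtain ⟨t, ht⟩ := hF.1
        obtain ⟨v, hv⟩ := card_pos.1 (show 0 < t.card by rw [hF.2.1 t ht]; omega)
        have e := congrFun h
          ⟨{v}, mem_faces.2 ⟨card_singleton v, t, ht, singleton_subset_iff.2 hv⟩⟩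
        rw [cbd_zero_apply hF, cbd_zero_apply hF] at e
        funext σ
        rwa [show σ = ⟨∅, empty_mem_faces hF⟩ from
          Subtype.ext (card_eq_zero.1 (mem_faces.1 σ.2).1)]
      rw [LinearMap.finrank_range_of_inj hinj]
      simp [Module.finrank_pi]
    | succ k ih =>
      intro hk
      have e : LinearMap.ker (cbd F (k + 1)) = LinearMap.range (cbd F k) := le_antisymm
        (fun f hf => exact_of_expander hF hD hε hX (by omega) (LinearMap.mem_ker.1 hf))
        (fun f ⟨a, ha⟩ => LinearMap.mem_ker.2 (by rw [← ha, cbd_cbd]))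
      have h := LinearMap.finrank_range_add_finrank_ker (cbd F (k + 1))
      rw [e, Module.finrank_pi, Fintype.card_coe] at h
      rw [sum_range_succ', pow_zero, one_mul, Nat.sub_zero]
      simp only [pow_succ, mul_neg, neg_mul, mul_one, Nat.succ_sub_succ, sum_neg_distrib]
      rw [← ih (by omega)]
      omega
  have h := Submodule.finrank_quotient_add_finrank (LinearMap.range (cbd F d))
  rw [Module.finrank_pi, Fintype.card_coe] at h
  rw [show d + 2 = d + 1 + 1 from rfl, sum_range_succ', pow_zero, one_mul, Nat.sub_zero]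
  simp only [pow_succ, mul_neg, neg_mul, mul_one, Nat.succ_sub_succ, sum_neg_distrib]
  rw [← key d le_rfl]
  unfold topBetti
  omega

end Vale.Agent.P067
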